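import Vale.Agent.P207.N3.H348.AcX
import Vale.Agent.P207.N3.Geo.Core

/-!
# P207, line N3: absolute continuity in the form consumed by `core_of_full`
-/

open scoped Manifold ContDiff ENNReal NNReal Topology Matrix
open Bundle MeasureTheory Set Filter Metric

set_option maxSynthPendingDepth 3
set_option linter.unusedSectionVars false

noncomputable section

namespace Vale.Agent.P207.N3.H348

open Vale.Agent.P255 (RMetric Npc)
open Vale.Agent.P207.Q Vale.Agent.P207.Q.H130
open Vale.Agent.P207F (ConstCurvature)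
open H465 (Deck PB Mt toMt ofMt Xt homeoMt)
open H156 (geoA Dk fl co)

variable {M : Type} [TopologicalSpace M] [ChartedSpace (EV 3) M] [IsManifold 𝓘(ℝ, EV 3) ∞ M]
  [CompactSpace M] [T2Space M] [ConnectedSpace M] {g : RMetric (EV 3) M}

/-- **Input (hAC) of `core_of_full`.** -/
theorem hAC_full [MeasurableSpace M] [BorelSpace M] (hN : NegCurvature g)
    {φ : ℝ → UT g → UT g} (hφ : IsGeoFlow g φ) {μ : Measure M}
    {m : Measure (UT g)} (hμ : IsRiemVol g μ) (hm : IsLiouville g μ m) :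
    ∀ [Nonempty (Fr g)] (D : MDat g ((horFlows g).Φ 0)) (m₀ : M) (F : Full hN D m₀)
      (o : Mt (sys g (npc_of_neg hN)) m₀), ∃ ν₀ : Measure ((geoA hN m₀).Bnd o),
        H732.HopfAC (F.hc.leaf o) φ (fun x => (frm x).ut 0) m ν₀ := by
  intro _ D m₀ F o
  obtain ⟨ν₀, -, h⟩ := hopfAC_model hN m₀ F.hc o D hφ hμ hm
  exact ⟨ν₀, h⟩

/-- **The top, modulo the one remaining input (hO).** -/
theorem core_of_outs [MeasurableSpace M] [BorelSpace M]
    (hN : NegCurvature g) {φ : ℝ → UT g → UT g} (hφ : IsGeoFlow g φ) {μ : Measure M}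
    {m : Measure (UT g)} (hμ : IsRiemVol g μ) (hm : IsLiouville g μ m)
    (heq : ksEntropy m (φ 1) = topEntropy (φ 1))
    (hF : ∀ [Nonempty (Fr g)] (D : MDat g ((horFlows g).Φ 0)) (m₀ : M),
      Nonempty (Full hN D m₀))
    (hO : ∀ [Nonempty (Fr g)] (D : MDat g ((horFlows g).Φ 0)) (m₀ : M) (F : Full hN D m₀)
      (o : Mt (sys g (npc_of_neg hN)) m₀) (S : Suite (F.hc.leaf o) (EV 3)),
        Nonempty (H662.CaseI (F.hc.leaf o) S.A)) :
    ∃ κ, ConstCurvature g κ :=
  core_of_full hN hφ hμ hm heq hF (hAC_full hN hφ hμ hm) hO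

end Vale.Agent.P207.N3.H348
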